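import Vale.Agent.P095.Amen.Defs

/-!
# P095: module targets for actions of elementary amenable groups
-/

namespace Vale.Agent.P095.Amen

open Vale.Agent.P101.KR Vale.Agent.P101.Bridge Vale.Agent.P095.Equiv

noncomputable section

/-- Comparison: a full element which every state makes strictly larger dominates. -/
def CompareTarget : Prop :=
  ∀ (F : Type) [CStarAlgebra F], HasCopies F → HasCentralCopy F → NoCharacter F →
    ∀ (u v : F) (a b δ : ℝ), FullPos v → DLe u a → DGe v b → a < b → 0 < δ →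
      ∃ x η, 0 < η ∧ star x * x = cut δ u ∧ bump η v * x = x

/-- Witnesses of fullness of bounded size. -/
def WitnessTarget : Prop :=
  ∀ c : ℝ, 0 < c → ∃ K : ℕ, ∀ (F : Type) [CStarAlgebra F], HasCopies F →
    HasCentralCopy F → NoCharacter F →
    ∀ (v : F) (δ : ℝ), SqLe 0 v → 0 < δ → FullPos (cut δ v) → DGe (cut δ v) c →
      ∃ y : Fin K → F, (∀ i, ‖y i‖ ≤ 2 / Real.sqrt δ) ∧ ∑ i, star (y i) * v * y i = 1

/-- The probability that a sum of independent three-point values lies in `G`: bank `j` has the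
value `1` with probability `x`, `0` with probability `y` and `v j` otherwise. -/
def prob3 {R : ℕ} (x y : ℝ) (v : Fin R → ℝ) (G : Set ℝ) : ℝ :=
  ∑ p : Fin R → Fin 3,
    G.indicator (fun _ => ∏ j, (![x, y, 1 - x - y] : Fin 3 → ℝ) (p j))
      (∑ j, (![1, 0, v j] : Fin 3 → ℝ) (p j))

/-- The mixture lemma: commuting banks with two forced ends are mixtures of three-point banks. -/
def MixtureTarget : Prop :=
  ∀ (F : Type) [CStarAlgebra F] (s : Set F) (R : ℕ) (κ : Copies (Cl s) F R)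
    (T eh el wh wl : Cl s) (x y θ τ μ δ : ℝ) (G : Set ℝ) (ψ : ℝ → ℝ),
    s.Countable → SqLe 0 (T : F) → SqLe (T : F) 1 → SqLe 0 (eh : F) → SqLe 0 (el : F) →
    0 < τ → τ < 1 / 4 → 0 < δ → 0 ≤ x → 0 ≤ y → x + y < 1 → 0 ≤ θ → (R : ℝ) * τ < μ →
    star wh * wh = eh → bump (1 - τ) (T : F) * (wh : F) = wh →
    star wl * wl = el → bump (1 - τ) (1 - (T : F)) * (wl : F) = wl →
    (∀ d : Dim (Cl s), x ≤ d.d (cut δ (eh : F)) ∧ d.d (eh : F) ≤ x + θ ∧
      y ≤ d.d (cut δ (el : F)) ∧ d.d (el : F) ≤ y + θ) →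
    Continuous ψ → (∀ t, 0 ≤ ψ t ∧ ψ t ≤ 1) → (∀ g ∈ G, ∀ t, |t - g| ≤ μ → 1 / 2 ≤ ψ t) →
    (∀ c : ℝ, (∀ v : Fin R → ℝ, (∀ j, 0 ≤ v j ∧ v j ≤ 1) → c ≤ prob3 x y v G) →
      DGe (cut (1 / 4) (cfc ψ (∑ j, κ.hom j T))) (c - 3 * R * θ / (1 - x - y))) ∧
    (FullPos eh → FullPos el →
      (∃ p : Fin R → Fin 2, (∑ j, ((p j : ℕ) : ℝ)) ∈ G) →
      FullPos (cut (1 / 4) (cfc ψ (∑ j, κ.hom j T))))

/-- The phase of the coin. -/
def coinPhase (C L s : ℝ) : ℝ := C ^ (3 / 4 : ℝ) * Real.sqrt L * Real.log (1 + s / (C * Real.sqrt L))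

/-- The coin: the phase of a sum of rare banks is not concentrated. -/
def CoinScalarTarget : Prop :=
  ∃ c C : ℝ, 0 < c ∧ 1 ≤ C ∧ ∀ (L x y : ℝ) (R : ℕ), 1 ≤ L → 0 < x → 3 / 4 ≤ y → x + y ≤ 1 →
    1 - y ≤ L * x → C ≤ R * x → R * x ≤ C + 1 → ∀ e : ℝ, (e = 1 ∨ e = -1) →
      (∀ v : Fin R → ℝ, (∀ j, 0 ≤ v j ∧ v j ≤ 1) →
        c ≤ prob3 x y v {s | 1 / 10 ≤ e * Real.sin (coinPhase C L s)}) ∧
      ∃ k : ℕ, k ≤ R ∧ 1 / 10 ≤ e * Real.sin (coinPhase C L k)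

/-- Amplification: arcs of the phase of a sum get their lengths. -/
def AmpScalarTarget : Prop :=
  ∀ c θ : ℝ, 0 < c → c ≤ 1 / 3 → 0 < θ → ∃ (R : ℕ) (lam : ℝ), 0 < lam ∧
    ∀ a b : ℝ, a < b → b ≤ a + 1 → θ ≤ b - a →
      (∀ v : Fin R → ℝ, (∀ j, 0 ≤ v j ∧ v j ≤ 1) →
        b - a - θ ≤ prob3 c c v {s | ∃ k : ℤ, a ≤ lam * s - k ∧ lam * s - k ≤ b}) ∧
      ∃ n : ℕ, n ≤ R ∧ ∃ k : ℤ, a ≤ lam * n - k ∧ lam * n - k ≤ b

/-- Two exactly fixed orthogonal full positive elements. -/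
def CoinTarget : Prop :=
  ∀ (F : Type) [CStarAlgebra F] (σ : F ≃⋆ₐ[ℂ] F), Setting σ →
    ∃ a b : F, σ a = a ∧ σ b = b ∧ SqLe 0 a ∧ SqLe 0 b ∧ SqLe a 1 ∧ SqLe b 1 ∧ a * b = 0 ∧
      FullPos a ∧ FullPos b

/-- The letters: source `s` with unit `s'`, mark `m` with unit `e`, and a third one `c`. -/
structure Letters {F : Type} [CStarAlgebra F] (σ : F ≃⋆ₐ[ℂ] F) (α θ : ℝ) where
  s : F
  s' : F
  m : F
  e : F
  c : F
  fix_s : σ s = s
  fix_s' : σ s' = s'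
  fix_m : σ m = m
  fix_e : σ e = e
  fix_c : σ c = c
  pos : ∀ u ∈ ({s, s', m, e, c} : Set F), SqLe 0 u ∧ SqLe u 1
  comm : ∀ u ∈ ({s, s', m, e, c} : Set F), ∀ w ∈ ({s, s', m, e, c} : Set F), Commute u w
  s'_s : s' * s = s
  e_m : e * m = m
  s'_e : s' * e = 0
  s'_c : s' * c = 0
  e_c : e * c = 0
  s_ge : DGe (cut (3 / 4) s) (α - θ)
  s'_le : DLe s' (α + θ)
  m_ge : DGe m (1 / 2 - θ)
  s_full : FullPos (cut (3 / 4) s)
  m_full : FullPos m
  c_full : FullPos c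

/-- Amplified letters of any prescribed class. -/
def LettersTarget : Prop :=
  ∀ (F : Type) [CStarAlgebra F] (σ : F ≃⋆ₐ[ℂ] F), Setting σ → ∀ α θ : ℝ, 0 < θ → θ ≤ α →
    α ≤ 1 / 4 → Nonempty (Letters σ α θ)

/-- The row element. -/
def RowTarget : Prop :=
  ∀ ε : ℝ, 0 < ε → ∃ n : ℕ, 0 < n ∧ ∀ (F : Type) [CStarAlgebra F] (σ : F ≃⋆ₐ[ℂ] F) (t : Set F), t.Countable → σ '' t = t →
    ∀ s s' e x : Cl t, σ s = s → σ s' = s' → σ e = e → star (s : F) = s → star (s' : F) = s' →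
      ‖s‖ ≤ 1 → ‖s'‖ ≤ 1 → ‖x‖ ≤ 1 → Commute s s' → s' * s = s → s' * x = 0 → e * x = x →
      star x * x * s = s →
      ∀ (κ : ECopies σ t (Fin n)) (U : Fin n → F),
        (∀ i, σ (U i) = U i) →
        (∀ i j, Commute (U i) (κ.hom j s) ∧ Commute (U i) (κ.hom j s')) →
        (∀ i, star (U i) * (U i * κ.hom i e) = κ.hom i e) →
        ∃ y : F, y ∈ Cl ((⋃ i, Set.range (κ.hom i)) ∪ Set.range U) ∧ ‖y‖ ≤ 1 ∧
          ‖σ y - y‖ ≤ ε ∧ y * y = 0 ∧
          y * (List.ofFn fun i => κ.hom i s').prod = y ∧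
          (List.ofFn fun i => κ.hom i s').prod * y = 0 ∧
          SqLe ((1 / 2 : ℝ) • ((List.ofFn fun i => κ.hom i s).prod *
            (List.ofFn fun i => κ.hom i s).prod)) (star y * y) ∧
          ∀ P : F, (∀ i, P * (U i * κ.hom i e) = U i * κ.hom i e) → P * y = y

/-- An exactly fixed full element of square zero. -/
def SquareTarget : Prop :=
  ∀ (F : Type) [CStarAlgebra F] (σ : F ≃⋆ₐ[ℂ] F), Setting σ →
    ∃ y : F, σ y = y ∧ y * y = 0 ∧ FullPos (star y * y)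

/-- One automorphism creates no characters on its fixed algebra. -/
def ZCoreTarget : Prop :=
  ∀ (F : Type) [CStarAlgebra F] (σ : F ≃⋆ₐ[ℂ] F), Setting σ → IsEmpty (fixedBy σ →⋆ₐ[ℂ] ℂ)

/-- Elementary amenable groups: the smallest class containing the finite and the abelian groups,
closed under extensions and directed unions. -/
inductive IsEA : (G : Type) → [Group G] → Prop
  | finite (G : Type) [Group G] [Finite G] : IsEA G
  | abelian (G : Type) [Group G] (h : ∀ a b : G, a * b = b * a) : IsEA G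
  | extension (G : Type) [Group G] (N : Subgroup G) [N.Normal] :
      IsEA N → IsEA (G ⧸ N) → IsEA G
  | union (G : Type) [Group G] {ι : Type} (H : ι → Subgroup G) :
      (∀ T : Finset G, ∃ i, ↑T ⊆ (H i : Set G)) → (∀ i, IsEA (H i)) → IsEA G

/-- A fixed central map from `D`, for every action of an elementary amenable group. -/
def FixedMapEATarget : Prop :=
  ∀ (G : Type) [Group G] [Countable G], IsEA G →
    ∀ (A : Type) [CStarAlgebra A] [TopologicalSpace.SeparableSpace A] (ω : Ultrafilter ℕ),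
      (ω : Filter ℕ) ≤ Filter.cofinite → NoCharacter (CentralAlgebra ω A) →
      ∀ (α : G → A ≃⋆ₐ[ℂ] A), (∀ g h a, α (g * h) a = α g (α h a)) →
      ∀ (D : Type) [CStarAlgebra D], IsJiangSu D →
        ∃ ψ : D →⋆ₐ[ℂ] CentralAlgebra ω A, ∀ g d, centralAct ω α g (ψ d) = ψ d

end

end Vale.Agent.P095.Amen
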