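import Vale.Agent.P095.Equiv.OmegaDefs

/-!
# P095: definitions for actions of elementary amenable groups

`LeIn` is Cuntz subequivalence of finite families (diagonal matrices), `Dim` a state of the preordered
semigroup it defines, and `Setting` what the argument uses of `F_ω(A)` and one automorphism of it.
-/

namespace Vale.Agent.P095.Amen

open Vale.Agent.P101.KR

noncomputable section

variable {F : Type} [CStarAlgebra F]

/-- `a ≤ b`, with a witness. -/
def SqLe (a b : F) : Prop := ∃ c : F, b - a = star c * c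

/-- A positive element of `B`, with a witness in `B`. -/
def PosIn (B : StarSubalgebra ℂ F) (u : F) : Prop := u ∈ B ∧ ∃ c ∈ B, u = star c * c

/-- `(u - δ)₊`. -/
def cut (δ : ℝ) (u : F) : F := cfc (fun t : ℝ => max (t - δ) 0) u

/-- One from `η` on, zero up to `η / 2`. -/
def bump (η : ℝ) (u : F) : F := cfc (fun t : ℝ => min 1 (max 0 ((t - η / 2) / (η / 2)))) u

/-- Cuntz subequivalence of two finite families inside `B`. -/
def LeIn (B : StarSubalgebra ℂ F) {n m : ℕ} (u : Fin n → F) (v : Fin m → F) : Prop :=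
  ∀ ε : ℝ, 0 < ε → ∃ x : Fin m → Fin n → F, (∀ j i, x j i ∈ B) ∧
    ∀ i i', ‖(∑ j, star (x j i) * v j * x j i') - (if i = i' then u i else 0)‖ ≤ ε

/-- A normalised state of the Cuntz semigroup of `B`. -/
structure Dim (B : StarSubalgebra ℂ F) where
  /-- The value. -/
  d : F → ℝ
  one : d 1 = 1
  mono : ∀ {n m : ℕ} (u : Fin n → F) (v : Fin m → F), (∀ i, PosIn B (u i)) → (∀ j, PosIn B (v j)) →
    LeIn B u v → ∑ i, d (u i) ≤ ∑ j, d (v j)

/-- Every state, of a large enough separable subalgebra, gives at least `c` to `u`. -/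
def DGe (u : F) (c : ℝ) : Prop :=
  ∃ s : Set F, s.Countable ∧ PosIn (Cl s) u ∧ ∀ d : Dim (Cl s), c ≤ d.d u

/-- Every state, of a large enough separable subalgebra, gives at most `c` to `u`. -/
def DLe (u : F) (c : ℝ) : Prop :=
  ∃ s : Set F, s.Countable ∧ PosIn (Cl s) u ∧ ∀ d : Dim (Cl s), d.d u ≤ c

/-- Finitely many conjugates of `u` sum to one. -/
def FullPos (u : F) : Prop := ∃ (K : ℕ) (y : Fin K → F), ∑ i, star (y i) * u * y i = 1

/-- Terms in `k` variables. -/
inductive Term (k : ℕ) where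
  | var (i : Fin k)
  | one
  | add (a b : Term k)
  | mul (a b : Term k)
  | smul (c : ℂ) (a : Term k)
  | adj (a : Term k)

/-- The value of a term. -/
def Term.eval {k : ℕ} : Term k → (Fin k → F) → F
  | .var i, x => x i
  | .one, _ => 1
  | .add a b, x => a.eval x + b.eval x
  | .mul a b, x => a.eval x * b.eval x
  | .smul c a, x => c • a.eval x
  | .adj a, x => star (a.eval x)

/-- Approximate solutions of finitely many relations, some variables almost fixed, give exact
ones. -/
def Saturated (σ : F ≃⋆ₐ[ℂ] F) : Prop :=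
  ∀ (k : ℕ) (I : Finset (Fin k)) (rels : List (Term k)) (C : ℝ),
    (∀ ε : ℝ, 0 < ε → ∃ x : Fin k → F, (∀ i, ‖x i‖ ≤ C) ∧ (∀ r ∈ rels, ‖r.eval x‖ ≤ ε) ∧
      ∀ i ∈ I, ‖σ (x i) - x i‖ ≤ ε) →
    ∃ x : Fin k → F, (∀ r ∈ rels, r.eval x = 0) ∧ ∀ i ∈ I, σ (x i) = x i

/-- Commuting copies of the algebra generated by `s`, compatible with `σ`. -/
structure ECopies (σ : F ≃⋆ₐ[ℂ] F) (s : Set F) (ι : Type) where
  /-- The copies. -/
  hom : ι → Cl s →⋆ₐ[ℂ] F
  comm : ∀ i j, i ≠ j → ∀ a b, Commute (hom i a) (hom j b)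
  equiv : ∀ i (x y : Cl s), σ x = y → σ (hom i x) = hom i y

/-- Every separable subalgebra has a copy commuting with it. -/
def HasCentralCopy (F : Type) [CStarAlgebra F] : Prop :=
  ∀ s : Set F, s.Countable → ∃ κ : Cl s →⋆ₐ[ℂ] F, ∀ x y : Cl s, Commute (κ x) (y : F)

/-- What the argument uses of `F_ω(A)` and an automorphism of it. -/
structure Setting (σ : F ≃⋆ₐ[ℂ] F) : Prop where
  noChar : NoCharacter F
  copies : ∀ s : Set F, s.Countable → σ '' s = s → Nonempty (ECopies σ s ℕ)
  central : HasCentralCopy F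
  saturated : Saturated σ

/-- The algebra fixed by one automorphism. -/
def fixedBy (σ : F ≃⋆ₐ[ℂ] F) : StarSubalgebra ℂ F :=
  StarAlgHom.equalizer σ.toStarAlgHom (StarAlgHom.id ℂ F)

end

end Vale.Agent.P095.Amen
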