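import Mathlib

/-!
# P095: states on preordered monoids (Goodearl–Handelman)

`exists_state` is the extension theorem for a group with a cone and an order unit; it is proved by
passing to a maximal cone, which is total, and reading the state off as a Dedekind cut.
`succ_nsmul_le_of_states` is the form used for Cuntz semigroups: a strict inequality for all states
turns into an inequality `(M + 1) u ≤ M v`.
-/

namespace Vale.Agent.P095.Amen

/-- An additive, monotone real function, equal to one at `e`. -/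
structure IsMonState {S : Type*} [AddCommMonoid S] [Preorder S] (e : S) (f : S → ℝ) : Prop where
  add : ∀ a b, f (a + b) = f a + f b
  mono : Monotone f
  unit : f e = 1

section Group

variable {G : Type*} [AddCommGroup G]

private theorem cut_of_total (C : AddSubmonoid G) (u : G)
    (horder : ∀ v : G, ∃ n : ℕ, v - n • u ∈ C) (hno : ∀ n : ℕ, 0 < n → n • u ∉ C)
    (htot : ∀ v, v ∈ C ∨ -v ∈ C) :
    ∃ f : G → ℝ, (∀ v w, f (v + w) = f v + f w) ∧ (∀ v ∈ C, f v ≤ 0) ∧ f u = 1 := by
  set A : G → Set ℝ := fun v =>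
    {r | ∃ (a : ℤ) (b : ℕ), 0 < b ∧ b • v - a • u ∈ C ∧ r = (a : ℝ) / b}
  have hcmp : ∀ (v : G) (a a' : ℤ) (b b' : ℕ), a • u - b • v ∈ C →
      b' • v - a' • u ∈ C → (a : ℝ) * b' ≤ a' * b := by
    intro v a a' b b' h h'
    by_contra hc
    push Not at hc
    have hz : a' * b < a * b' := by exact_mod_cast hc
    obtain ⟨n, hn⟩ := Int.eq_ofNat_of_zero_le (show 0 ≤ a * b' - a' * b by omega)
    refine hno n (by omega) ?_
    have hsum := C.add_mem (C.nsmul_mem h b') (C.nsmul_mem h' b)
    convert hsum using 1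
    have h3 : n • u = (a * b' - a' * b) • u := by rw [hn, natCast_zsmul]
    rw [h3]
    module
  have hlow : ∀ v, ∃ n : ℕ, (-(n : ℤ)) • u - v ∈ C := fun v => by
    obtain ⟨n, hn⟩ := horder (-v)
    refine ⟨n, ?_⟩
    convert hn using 1
    rw [neg_smul, natCast_zsmul]
    abel
  have hne : ∀ v, (A v).Nonempty := fun v => by
    obtain ⟨n, hn⟩ := horder v
    exact ⟨(n : ℝ), n, 1, one_pos, by simpa using hn, by simp⟩
  have hbdd : ∀ v, BddBelow (A v) := fun v => by
    obtain ⟨n, hn⟩ := hlow v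
    refine ⟨-(n : ℝ), ?_⟩
    rintro r ⟨a, b, hb, hab, rfl⟩
    rw [le_div_iff₀ (by exact_mod_cast hb)]
    simpa using hcmp v (-(n : ℤ)) a 1 b (by simpa using hn) hab
  set f : G → ℝ := fun v => sInf (A v)
  have hle : ∀ v (a : ℤ) (b : ℕ), 0 < b → b • v - a • u ∈ C → f v ≤ a / b :=
    fun v a b hb h => csInf_le (hbdd v) ⟨a, b, hb, h, rfl⟩
  have hge : ∀ v (a : ℤ) (b : ℕ), 0 < b → a • u - b • v ∈ C → (a : ℝ) / b ≤ f v :=
    fun v a b hb h => by
      refine le_csInf (hne v) ?_
      rintro r ⟨a', b', hb', h', rfl⟩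
      rw [div_le_div_iff₀ (by exact_mod_cast hb) (by exact_mod_cast hb')]
      exact hcmp v a a' b b' h h'
  have happ : ∀ v (r : ℝ), r < f v → ∃ (a : ℤ) (b : ℕ), 0 < b ∧ a • u - b • v ∈ C ∧ r < a / b := by
    intro v r hr
    obtain ⟨q, hq1, hq2⟩ := exists_rat_btwn hr
    have hq : (q : ℝ) = (q.num : ℝ) / (q.den : ℝ) := by
      rw [Rat.cast_def]
    refine ⟨q.num, q.den, q.pos, ?_, hq ▸ hq1⟩
    rcases htot (q.den • v - q.num • u) with h | h
    · exact absurd (hle v _ _ q.pos h) (by rw [← hq]; exact not_le.2 hq2)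
    · simpa using h
  refine ⟨f, fun v w => le_antisymm ?_ ?_, fun v hv => ?_, le_antisymm ?_ ?_⟩
  · refine le_of_forall_pos_le_add fun ε hε => ?_
    obtain ⟨r, ⟨a, b, hb, h, rfl⟩, hr⟩ :=
      exists_lt_of_csInf_lt (hne v) (show f v < f v + ε / 2 by linarith)
    obtain ⟨r', ⟨a', b', hb', h', rfl⟩, hr'⟩ :=
      exists_lt_of_csInf_lt (hne w) (show f w < f w + ε / 2 by linarith)
    have hm : (b * b') • (v + w) - (a * b' + a' * b) • u ∈ C := by
      convert C.add_mem (C.nsmul_mem h b') (C.nsmul_mem h' b) using 1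
      module
    refine (hle _ _ _ (Nat.mul_pos hb hb') hm).trans ?_
    have hbr : (0 : ℝ) < b := by exact_mod_cast hb
    have hbr' : (0 : ℝ) < b' := by exact_mod_cast hb'
    push_cast
    rw [show ((a : ℝ) * b' + a' * b) / (b * b') = a / b + a' / b' by field_simp]
    linarith
  · refine le_of_forall_pos_le_add fun ε hε => ?_
    obtain ⟨a, b, hb, h, hr⟩ := happ v (f v - ε / 2) (by linarith)
    obtain ⟨a', b', hb', h', hr'⟩ := happ w (f w - ε / 2) (by linarith)
    have hm : (a * b' + a' * b) • u - (b * b') • (v + w) ∈ C := by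
      convert C.add_mem (C.nsmul_mem h b') (C.nsmul_mem h' b) using 1
      module
    have h2 := hge _ _ _ (Nat.mul_pos hb hb') hm
    have hbr : (0 : ℝ) < b := by exact_mod_cast hb
    have hbr' : (0 : ℝ) < b' := by exact_mod_cast hb'
    push_cast at h2
    rw [show ((a : ℝ) * b' + a' * b) / (b * b') = a / b + a' / b' by field_simp] at h2
    linarith
  · simpa using hle v 0 1 one_pos (by simpa using hv)
  · simpa using hle u 1 1 one_pos (by simp)
  · simpa using hge u 1 1 one_pos (by simp)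

/-- A cone containing no multiple of the order unit `u` has a state which is nonpositive on it. -/
theorem exists_state (P : AddSubmonoid G) (u : G)
    (horder : ∀ v : G, ∃ n : ℕ, v - n • u ∈ P) (hno : ∀ n : ℕ, 0 < n → n • u ∉ P) :
    ∃ f : G → ℝ, (∀ v w, f (v + w) = f v + f w) ∧ (∀ v ∈ P, f v ≤ 0) ∧ f u = 1 := by
  obtain ⟨C, hPC, hC⟩ := zorn_le_nonempty₀ {C : AddSubmonoid G | ∀ n : ℕ, 0 < n → n • u ∉ C}
    (fun c hc hchain y hy => ⟨sSup c, fun n hn hmem => by
      obtain ⟨D, hD, hnD⟩ := (AddSubmonoid.mem_sSup_of_directedOn ⟨y, hy⟩ hchain.directedOn).1 hmem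
      exact hc hD n hn hnD, fun D hD => le_sSup hD⟩) P hno
  have hkey : ∀ v, v ∉ C → ∃ (j n : ℕ), 0 < n ∧ n • u - j • v ∈ C := by
    intro v hv
    by_contra hc
    push Not at hc
    have hbad : C ⊔ AddSubmonoid.multiples v ∈ {C : AddSubmonoid G | ∀ n : ℕ, 0 < n → n • u ∉ C} := by
      intro n hn hmem
      obtain ⟨x, hx, z, hz, hxz⟩ := AddSubmonoid.mem_sup.1 hmem
      obtain ⟨j, rfl⟩ := hz
      exact hc j n hn (by simpa [← hxz] using hx)
    exact hv (hC.2 hbad le_sup_left (AddSubmonoid.mem_sup_right (AddSubmonoid.mem_multiples v)))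
  have htot : ∀ v, v ∈ C ∨ -v ∈ C := by
    intro v
    by_contra hc
    push Not at hc
    obtain ⟨j, n, hn, h⟩ := hkey v hc.1
    obtain ⟨i, m, hm, h'⟩ := hkey (-v) hc.2
    rcases Nat.eq_zero_or_pos j with rfl | hj
    · exact hC.1 n hn (by simpa using h)
    refine hC.1 (i * n + j * m) (Nat.add_pos_right _ (Nat.mul_pos hj hm)) ?_
    convert C.add_mem (C.nsmul_mem h i) (C.nsmul_mem h' j) using 1
    simp only [nsmul_sub, smul_neg, ← mul_smul, add_smul, mul_comm i j]
    abel
  obtain ⟨f, hadd, hneg, hone⟩ := cut_of_total C u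
    (fun v => (horder v).imp fun n hn => hPC hn) hC.1 htot
  exact ⟨f, hadd, fun v hv => hneg v (hPC hv), hone⟩

end Group

/-- Goodearl–Handelman: if all states are strictly larger at a full `v` than at `u`, by `1 / q`,
then `(M + 1) u ≤ M v` for some `M`. -/
theorem succ_nsmul_le_of_states {S : Type*} [AddCommMonoid S] [Preorder S]
    (hadd : ∀ a b c : S, a ≤ b → a + c ≤ b + c) (hpos : ∀ a : S, 0 ≤ a) {e u v : S}
    (hord : ∀ x : S, ∃ n : ℕ, x ≤ n • e) {N : ℕ} (hfull : e ≤ N • v) {q : ℕ}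
    (hst : ∀ f : S → ℝ, IsMonState e f → (1 : ℝ) + q * f u < q * f v) :
    ∃ M : ℕ, (M + 1) • u ≤ M • v := by
  classical
  let ι := Algebra.GrothendieckAddGroup.of (M := S)
  have hadd' : ∀ a b c d : S, a ≤ b → c ≤ d → a + c ≤ b + d := fun a b c d h h' =>
    (hadd a b c h).trans (by simpa [add_comm] using hadd c d b h')
  have hnsmul : ∀ (k : ℕ) {a b : S}, a ≤ b → k • a ≤ k • b := fun k a b h => by
    induction k with
    | zero => simp
    | succ k ih => simpa [succ_nsmul] using hadd' _ _ _ _ ih h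
  have hmul : ∀ {a : S} {i j : ℕ}, i ≤ j → i • a ≤ j • a := fun {a i j} h => by
    obtain ⟨l, rfl⟩ := Nat.exists_eq_add_of_le h
    simpa [add_nsmul, add_comm] using hadd 0 (l • a) (i • a) (hpos _)
  have hext : ∀ a b : S, ι a = ι b → ∃ c, a + c = b + c := fun a b h => by
    obtain ⟨c, hc⟩ := (AddSubmonoid.LocalizationMap.eq_iff_exists
      (AddLocalization.addMonoidOf (⊤ : AddSubmonoid S))).1 h
    exact ⟨c, by simpa [add_comm] using hc⟩
  have hsurj : ∀ x : Algebra.GrothendieckAddGroup S, ∃ a b : S, x = ι a - ι b := fun x => by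
    obtain ⟨⟨a, b⟩, h⟩ := (AddLocalization.addMonoidOf (⊤ : AddSubmonoid S)).surj x
    exact ⟨a, b, eq_sub_of_add_eq h⟩
  let P : AddSubmonoid (Algebra.GrothendieckAddGroup S) :=
    { carrier := {x | ∃ a b w : S, ∃ j : ℕ,
        x = ι a - ι b + j • (q • ι v - q • ι u - ι e) ∧ a + w ≤ b + w}
      zero_mem' := ⟨0, 0, 0, 0, by simp, le_rfl⟩
      add_mem' := by
        rintro _ _ ⟨a, b, w, j, rfl, h⟩ ⟨a', b', w', j', rfl, h'⟩
        refine ⟨a + a', b + b', w + w', j + j', by rw [map_add, map_add, add_smul]; abel, ?_⟩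
        rw [add_add_add_comm a, add_add_add_comm b]
        exact hadd' _ _ _ _ h h' }
  by_cases hex : ∃ n : ℕ, 0 < n ∧ n • ι e ∈ P
  · obtain ⟨n, hn, a, b, w, j, heq, hab⟩ := hex
    obtain ⟨c, hc⟩ := hext ((n + j) • e + (j * q) • u + b) (a + (j * q) • v) (by
      simp only [map_add, map_nsmul, add_smul, mul_smul] at heq ⊢
      rw [heq, nsmul_sub, nsmul_sub]
      abel)
    set W : S := b + c + w
    have h1 : (n + j) • e + (j * q) • u + W ≤ (j * q) • v + W := by
      calc (n + j) • e + (j * q) • u + W = ((n + j) • e + (j * q) • u + b + c) + w := by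
            simp only [W]; abel
        _ = (a + w) + ((j * q) • v + c) := by rw [hc]; abel
        _ ≤ (b + w) + ((j * q) • v + c) := hadd _ _ _ hab
        _ = _ := by simp only [W]; abel
    have h2 : ∀ K : ℕ, K • ((n + j) • e + (j * q) • u) + W ≤ K • ((j * q) • v) + W := by
      intro K
      induction K with
      | zero => simp
      | succ K ih =>
        set X := (n + j) • e + (j * q) • u
        set Y := (j * q) • v
        calc (K + 1) • X + W = K • X + W + X := by rw [succ_nsmul]; abel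
          _ ≤ K • Y + W + X := hadd _ _ _ ih
          _ = X + W + K • Y := by abel
          _ ≤ Y + W + K • Y := hadd _ _ _ h1
          _ = _ := by rw [succ_nsmul]; abel
    obtain ⟨n', hn'⟩ := hord W
    obtain ⟨m, hm⟩ := hord u
    set N' := n' * N
    have hW : W ≤ N' • v := hn'.trans (by rw [mul_smul]; exact hnsmul _ hfull)
    refine ⟨m * (N' + 1) * (j * q) + N', ?_⟩
    set K := m * (N' + 1)
    calc (K * (j * q) + N' + 1) • u = (N' + 1) • u + (K * (j * q)) • u := by
          rw [← add_smul]; congr 1; ring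
      _ ≤ ((N' + 1) * m) • e + (K * (j * q)) • u := by
        refine hadd _ _ _ ?_
        rw [mul_smul]; exact hnsmul _ hm
      _ ≤ (K * (n + j)) • e + (K * (j * q)) • u := hadd _ _ _ (hmul (by
        rw [Nat.mul_comm (N' + 1) m]; exact Nat.le_mul_of_pos_right _ (by omega)))
      _ = K • ((n + j) • e + (j * q) • u) + 0 := by rw [add_zero, nsmul_add, ← mul_smul, ← mul_smul]
      _ ≤ K • ((n + j) • e + (j * q) • u) + W := hadd' _ _ _ _ le_rfl (hpos W)
      _ ≤ K • ((j * q) • v) + W := h2 _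
      _ ≤ K • ((j * q) • v) + N' • v := hadd' _ _ _ _ le_rfl hW
      _ = _ := by rw [add_smul, mul_smul K]
  · push Not at hex
    exfalso
    obtain ⟨f, hf, hneg, hone⟩ := exists_state P (ι e) (fun x => by
      obtain ⟨a, b, rfl⟩ := hsurj x
      obtain ⟨n, hn⟩ := hord a
      refine ⟨n, a, b + n • e, 0, 0, by rw [map_add, map_nsmul, zero_smul, add_zero]; abel, ?_⟩
      simpa using hn.trans (by simpa using hadd 0 b (n • e) (hpos b))) hex
    let F := AddMonoidHom.mk' f hf
    have hs : IsMonState e (fun x => F (ι x)) := by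
      refine ⟨fun a b => by simp, fun a b hab => ?_, hone⟩
      have := hneg (ι a - ι b) ⟨a, b, 0, 0, by simp, by simpa using hab⟩
      change F (ι a) ≤ F (ι b)
      have h' : F (ι a - ι b) ≤ 0 := this
      rw [map_sub] at h'
      linarith
    have h1 : F (q • ι v - q • ι u - ι e) ≤ 0 := hneg _ ⟨0, 0, 0, 1, by simp, le_rfl⟩
    rw [map_sub, map_sub, map_nsmul, map_nsmul, nsmul_eq_mul, nsmul_eq_mul] at h1
    have := hst _ hs
    have h2 : F (ι e) = 1 := hone
    linarith

end Vale.Agent.P095.Amen
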